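import Vale.Agent.P249Z.Main

/-!
# Dimension reduction in `L_p`: subpolynomial dimension for `D > 1`, quadratic dimension for `D = 1`
-/

open MeasureTheory Filter Asymptotics Topology
open scoped ENNReal

universe u

namespace Vale.Agent.Results.P249.AASubpolyExact

/-- Every `n`-point subset `X` of every real `L_p(μ)` has a map `f` (arbitrary, not assumed to be
linear) into `ℓ_p^d` of distortion at most `D`. -/
def Admissible (p : ℝ≥0∞) [Fact (1 ≤ p)] (n : ℕ) (D : ℝ) (d : ℕ) : Prop :=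
  ∀ (Ω : Type u) [MeasurableSpace Ω] (μ : Measure Ω) (X : Finset (Lp ℝ p μ)), X.card = n →
    ∃ f : Lp ℝ p μ → PiLp p (fun _ : Fin d => ℝ), ∃ s : ℝ, 0 < s ∧ ∀ x ∈ X, ∀ y ∈ X,
      s * ‖x - y‖ ≤ ‖f x - f y‖ ∧ ‖f x - f y‖ ≤ D * s * ‖x - y‖

/-- `d_p(n, D)`: the least `d` such that every `n`-point subset of every `L_p(μ)` has a map into
`ℓ_p^d` of distortion at most `D`. -/
noncomputable def dimLp (p : ℝ≥0∞) [Fact (1 ≤ p)] (n : ℕ) (D : ℝ) : ℕ :=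
  sInf {d : ℕ | Admissible.{u} p n D d}

theorem result (p : ℝ≥0∞) [Fact (1 ≤ p)] (hp1 : 1 < p) (hptop : p ≠ ∞) :
    -- (0) the minimum in the definition of `d_p(n, D)` exists
    (∀ (n : ℕ) (D : ℝ), 1 ≤ D → IsLeast {d : ℕ | Admissible.{u} p n D d} (dimLp.{u} p n D)) ∧
    -- (1) for every `D > 1`: `d_p(n, D) = o(n)`, even `d_p(n, D) = n ^ o(1)`, and the volume bound
    (∀ D : ℝ, 1 < D →
      (fun n : ℕ => (dimLp.{u} p n D : ℝ)) =o[atTop] (fun n : ℕ => (n : ℝ)) ∧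
      Tendsto (fun n : ℕ => Real.log (dimLp.{u} p n D) / Real.log n) atTop (𝓝 0) ∧
      ∀ n : ℕ, Real.log n / Real.log (1 + 2 * D) ≤ dimLp.{u} p n D) ∧
    (p ≠ 2 →
      -- the exponent `t = |1 - 2 / p|`
      (|1 - 2 / p.toReal| < 1 ∧ (p < 2 → |1 - 2 / p.toReal| ≤ 2 - p.toReal) ∧
        (2 < p → |1 - 2 / p.toReal| = 1 - 2 / p.toReal)) ∧
      -- (2) for every `D > 1`: `d_p(n, D) ≤ exp (C (log n) ^ γ)` for every `γ ≥ t`, and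
      -- `d_p(n, D) ≥ exp (exp ((log log n) ^ (1 / 20)))` for large `n`
      (∀ D : ℝ, 1 < D →
        (∀ γ : ℝ, |1 - 2 / p.toReal| ≤ γ → ∃ C : ℝ, 0 < C ∧ ∀ n : ℕ, 2 ≤ n →
          (dimLp.{u} p n D : ℝ) ≤ Real.exp (C * Real.log n ^ γ)) ∧
        ∃ n₀ : ℕ, ∀ n : ℕ, n₀ ≤ n →
          Real.exp (Real.exp ((Real.log (Real.log n)) ^ (1 / 20 : ℝ))) ≤ (dimLp.{u} p n D : ℝ)) ∧
      -- (3) uniformly in `n` and `ε`: `d_p(n, 1 + ε) ≤ exp (C (log n) ^ t / ε)`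
      (∃ C : ℝ, 0 < C ∧ ∀ n : ℕ, 2 ≤ n → ∀ ε : ℝ, 0 < ε → ε ≤ 1 →
        (dimLp.{u} p n (1 + ε) : ℝ) ≤ Real.exp (C * Real.log n ^ |1 - 2 / p.toReal| / ε)) ∧
      -- (4) exact embeddings, `D = 1`: `(n - 2).choose 2 + 1 ≤ d_p(n, 1) ≤ n.choose 2`
      (∀ n : ℕ, 2 ≤ n →
        (n - 2).choose 2 + 1 ≤ dimLp.{u} p n 1 ∧ dimLp.{u} p n 1 ≤ n.choose 2) ∧
      Tendsto (fun n : ℕ => (dimLp.{u} p n 1 : ℝ) / (n : ℝ) ^ 2) atTop (𝓝 (1 / 2))) := by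
  refine ⟨fun n D hD => Vale.Agent.P249Z.dimU_isLeast hptop n hD, fun D hD => ⟨?_,
    Vale.Agent.P249Z.tendsto_log_dimU hp1 hptop hD,
    fun n => Vale.Agent.P249Z.log_div_le_dimU hptop n hD.le⟩, fun hp2 =>
    ⟨Vale.Agent.P249Z.expo_lt hp1 hptop, fun D hD =>
      ⟨fun γ hγ => Vale.Agent.P249Z.dimU_le_exp' hp1 hptop hp2 hD hγ,
        Vale.Agent.P249Z.le_dimU_super hp1 hptop hp2 hD⟩,
      Vale.Agent.P249Z.dimU_le_exp hp1 hptop hp2,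
      fun n hn => ⟨Vale.Agent.P249Z.choose_le_dimU hp1 hptop hp2 hn,
        Vale.Agent.P249Z.dimU_le_choose hptop n le_rfl⟩,
      Vale.Agent.P249Z.tendsto_dimU_one hp1 hptop hp2⟩⟩
  have h := Vale.Agent.P249Z.dimU_littleO.{u} hp1 hptop hD one_pos
  simp only [Real.rpow_one] at h
  exact h

end Vale.Agent.Results.P249.AASubpolyExact
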